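import Vale.Agent.P084.Odd.Star
import Vale.Agent.P084.Reduction

/-!
Surjective isometries of unit spheres preserve antipodes, and are determined by stars.
-/

open Metric Set
open UniformSpace (Completion)

namespace Vale.Agent.P084.Odd

universe u v

variable {X : Type u} [NormedAddCommGroup X] [NormedSpace ℝ X]
  {Y : Type v} [NormedAddCommGroup Y] [NormedSpace ℝ Y]

/-- A positively homogeneous norm preserving map which is nonexpansive on the sphere. -/
structure Hom1 (F : X → Y) : Prop where
  norm_eq : ∀ x, ‖F x‖ = ‖x‖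
  smul : ∀ (t : ℝ) x, 0 ≤ t → F (t • x) = t • F x
  dist_le : ∀ a b, ‖‖b‖ • F a - ‖a‖ • F b‖ ≤ ‖‖b‖ • a - ‖a‖ • b‖

namespace Hom1

variable {F : X → Y}

theorem on_sphere (h : Hom1 F) {a b : X} (ha : ‖a‖ = 1) (hb : ‖b‖ = 1) :
    ‖F a - F b‖ ≤ ‖a - b‖ := by
  simpa [ha, hb] using h.dist_le a b

end Hom1

/-- The homogeneous extension of an isometry of spheres. -/
theorem hom1_homExt (f : sphere (0 : X) 1 → sphere (0 : Y) 1) (hf : Isometry f) :
    Hom1 (homExt f) := by
  refine ⟨norm_homExt f, fun t x ht => homExt_smul f ht x, fun a b => ?_⟩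
  rcases eq_or_ne a 0 with rfl | ha
  · simp [homExt_zero]
  rcases eq_or_ne b 0 with rfl | hb
  · simp [homExt_zero]
  obtain ⟨u, hu⟩ := exists_polar ha
  obtain ⟨w, hw⟩ := exists_polar hb
  have ea : ‖b‖ • homExt f a = (‖b‖ * ‖a‖) • (f u : Y) := by
    conv_lhs => rw [hu, homExt_smul_sphere f (norm_nonneg a)]
    rw [smul_smul]
  have eb : ‖a‖ • homExt f b = (‖b‖ * ‖a‖) • (f w : Y) := by
    conv_lhs => rw [hw, homExt_smul_sphere f (norm_nonneg b)]
    rw [smul_smul, mul_comm]
  have ex : ‖b‖ • a - ‖a‖ • b = (‖b‖ * ‖a‖) • ((u : X) - w) := by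
    conv_lhs => rw [show ‖b‖ • a = ‖b‖ • ‖a‖ • (u : X) by rw [← hu],
      show ‖a‖ • b = ‖a‖ • ‖b‖ • (w : X) by rw [← hw]]
    rw [smul_smul, smul_smul, smul_sub, mul_comm ‖a‖ ‖b‖]
  rw [ea, eb, ex, ← smul_sub, norm_smul, norm_smul]
  refine mul_le_mul_of_nonneg_left (le_of_eq ?_) (norm_nonneg _)
  have := hf.dist_eq u w
  rwa [Subtype.dist_eq, Subtype.dist_eq, dist_eq_norm, dist_eq_norm] at this

/-- Two such maps, inverse to each other, pass to the completions. -/
theorem exists_completion {F : X → Y} {Q : Y → X} {K K' : NNReal} (hF : Hom1 F) (hQ : Hom1 Q)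
    (hFl : LipschitzWith K F) (hQl : LipschitzWith K' Q) (hQF : ∀ x, Q (F x) = x)
    (hFQ : ∀ y, F (Q y) = y) :
    ∃ (F' : Completion X → Completion Y) (Q' : Completion Y → Completion X),
      Hom1 F' ∧ Hom1 Q' ∧ (∀ x, Q' (F' x) = x) ∧ (∀ y, F' (Q' y) = y) ∧
        ∀ x : X, F' x = (F x : Completion Y) := by
  set F' := Completion.map F with hF'
  set Q' := Completion.map Q with hQ'
  have hFc : ∀ x : X, F' x = (F x : Completion Y) :=
    fun x => Completion.map_coe hFl.uniformContinuous x
  have hQc : ∀ y : Y, Q' y = (Q y : Completion X) :=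
    fun y => Completion.map_coe hQl.uniformContinuous y
  have hFC : Continuous F' := Completion.continuous_map
  have hQC : Continuous Q' := Completion.continuous_map
  refine ⟨F', Q', ⟨fun x => ?_, fun t x ht => ?_, fun a b => ?_⟩,
    ⟨fun x => ?_, fun t x ht => ?_, fun a b => ?_⟩, fun x => ?_, fun y => ?_, hFc⟩
  · induction x using Completion.induction_on with
    | hp => exact isClosed_eq hFC.norm continuous_norm
    | ih x => rw [hFc, Completion.norm_coe, Completion.norm_coe, hF.norm_eq]
  · induction x using Completion.induction_on with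
    | hp => exact isClosed_eq (hFC.comp (continuous_const_smul t)) (hFC.const_smul t)
    | ih x => rw [← Completion.coe_smul, hFc, hFc, hF.smul t x ht, Completion.coe_smul]
  · induction a, b using Completion.induction_on₂ with
    | hp => exact isClosed_le (by fun_prop) (by fun_prop)
    | ih a b =>
      simp only [hFc, Completion.norm_coe, ← Completion.coe_smul, ← Completion.coe_sub]
      exact hF.dist_le a b
  · induction x using Completion.induction_on with
    | hp => exact isClosed_eq hQC.norm continuous_norm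
    | ih x => rw [hQc, Completion.norm_coe, Completion.norm_coe, hQ.norm_eq]
  · induction x using Completion.induction_on with
    | hp => exact isClosed_eq (hQC.comp (continuous_const_smul t)) (hQC.const_smul t)
    | ih x => rw [← Completion.coe_smul, hQc, hQc, hQ.smul t x ht, Completion.coe_smul]
  · induction a, b using Completion.induction_on₂ with
    | hp => exact isClosed_le (by fun_prop) (by fun_prop)
    | ih a b =>
      simp only [hQc, Completion.norm_coe, ← Completion.coe_smul, ← Completion.coe_sub]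
      exact hQ.dist_le a b
  · induction x using Completion.induction_on with
    | hp => exact isClosed_eq (hQC.comp hFC) continuous_id
    | ih x => rw [hFc, hQc, hQF]
  · induction y using Completion.induction_on with
    | hp => exact isClosed_eq (hFC.comp hQC) continuous_id
    | ih y => rw [hQc, hFc, hFQ]

/-- A nonexpansive homogeneous map in the same star as an isometry of Banach spheres equals it. -/
theorem eq_of_star [CompleteSpace X] {F : X → Y} {Q : Y → X} (hQ : Hom1 Q)
    (hFQ : ∀ y, F (Q y) = y) {Φ : X → Y}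
    (hΦn : ∀ u, ‖u‖ = 1 → ‖Φ u‖ = 1)
    (hΦl : ∀ u v, ‖u‖ = 1 → ‖v‖ = 1 → ‖Φ u - Φ v‖ ≤ ‖u - v‖)
    (hst : ∀ u, ‖u‖ = 1 → ‖u + Q (Φ u)‖ = 2) {u : X} (hu : ‖u‖ = 1) : Φ u = F u := by
  have h := eq_self_of_star (g := fun u => Q (Φ u)) (fun u hu => by rw [hQ.norm_eq, hΦn u hu])
    (fun a b ha hb => (hQ.on_sphere (hΦn a ha) (hΦn b hb)).trans (hΦl a b ha hb)) hst hu
  have := congrArg F h
  rwa [hFQ] at this

/-- Antipodes are preserved, in Banach spaces. -/
theorem neg_banach [CompleteSpace X] {F : X → Y} {Q : Y → X} (hF : Hom1 F) (hQ : Hom1 Q)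
    (hQF : ∀ x, Q (F x) = x) (hFQ : ∀ y, F (Q y) = y) {u : X} (hu : ‖u‖ = 1) :
    F (-u) = -F u := by
  have hiso : ∀ a b, ‖a‖ = 1 → ‖b‖ = 1 → ‖F a - F b‖ = ‖a - b‖ := fun a b ha hb =>
    le_antisymm (hF.on_sphere ha hb) (by
      have := hQ.on_sphere (a := F a) (b := F b) (by rw [hF.norm_eq, ha]) (by rw [hF.norm_eq, hb])
      rwa [hQF, hQF] at this)
  have h := eq_of_star hQ hFQ (Φ := fun a => -F (-a))
    (fun a ha => by rw [norm_neg, hF.norm_eq, norm_neg, ha])
    (fun a b ha hb => by
      rw [← norm_neg, neg_sub, sub_neg_eq_add, neg_add_eq_sub]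
      refine (hF.on_sphere (by rw [norm_neg, ha]) (by rw [norm_neg, hb])).trans (le_of_eq ?_)
      rw [← norm_neg]; congr 1; abel)
    (fun a ha => by
      have hn : ‖Q (-F (-a))‖ = 1 := by rw [hQ.norm_eq, norm_neg, hF.norm_eq, norm_neg, ha]
      have h2 := hiso _ _ hn (show ‖-a‖ = 1 by rw [norm_neg, ha])
      rw [hFQ, ← neg_add', norm_neg, ← two_smul ℝ, norm_smul, hF.norm_eq, norm_neg, ha,
        sub_neg_eq_add, add_comm] at h2
      rw [← h2]; norm_num) hu
  exact neg_eq_iff_eq_neg.1 h

/-- Every surjective isometry between unit spheres of normed spaces maps antipodes to antipodes. -/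
theorem apply_neg (f : sphere (0 : X) 1 → sphere (0 : Y) 1) (hf : Isometry f)
    (hs : Function.Surjective f) (x : sphere (0 : X) 1) : (f (-x) : Y) = -(f x : Y) := by
  set g := Function.surjInv hs with hg
  have hfg : ∀ w, f (g w) = w := Function.surjInv_eq hs
  have hgf : ∀ u, g (f u) = u := fun u => hf.injective (hfg (f u))
  have hgi : Isometry g := Isometry.of_dist_eq fun a b => by rw [← hf.dist_eq, hfg, hfg]
  obtain ⟨F', Q', hF', hQ', hQF, hFQ, hext⟩ := exists_completion (hom1_homExt f hf)
    (hom1_homExt g hgi) (homExt_lipschitz f hf) (homExt_lipschitz g hgi)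
    (homExt_homExt f hgf) (homExt_homExt g hfg)
  have h := neg_banach hF' hQ' hQF hFQ (u := ((x : X) : Completion X))
    (by rw [Completion.norm_coe]; exact mem_sphere_zero_iff_norm.1 x.2)
  rw [← Completion.coe_neg, hext, hext, ← Completion.coe_neg] at h
  have h' := Completion.coe_injective Y h
  rw [show -(x : X) = ((-x : sphere (0 : X) 1) : X) from rfl, homExt_sphere, homExt_sphere] at h'
  exact h'

end Vale.Agent.P084.Odd
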