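import Mathlib

/-!
A nonexpansive self-map of the unit sphere of a Banach space which moves every point inside its
star is the identity.
-/

open Metric Set

namespace Vale.Agent.P084.Odd

variable {X : Type*} [NormedAddCommGroup X] [NormedSpace ℝ X]

/-- Nonnegative combinations of two unit vectors whose sum has norm two add their weights. -/
theorem norm_comb {u v : X} (hu : ‖u‖ = 1) (hv : ‖v‖ = 1) (huv : ‖u + v‖ = 2) {a b : ℝ}
    (ha : 0 ≤ a) (hb : 0 ≤ b) : ‖a • u + b • v‖ = a + b := by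
  refine le_antisymm ?_ ?_
  · refine (norm_add_le _ _).trans ?_
    rw [norm_smul, norm_smul, Real.norm_of_nonneg ha, Real.norm_of_nonneg hb, hu, hv, mul_one,
      mul_one]
  rcases le_total a b with h | h
  · have e : a • u + b • v = b • (u + v) - (b - a) • u := by module
    have h1 := norm_sub_norm_le (b • (u + v)) ((b - a) • u)
    rw [norm_smul, norm_smul, Real.norm_of_nonneg hb, Real.norm_of_nonneg (sub_nonneg.2 h), huv,
      hu, ← e] at h1
    linarith
  · have e : a • u + b • v = a • (u + v) - (a - b) • v := by module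
    have h1 := norm_sub_norm_le (a • (u + v)) ((a - b) • v)
    rw [norm_smul, norm_smul, Real.norm_of_nonneg ha, Real.norm_of_nonneg (sub_nonneg.2 h), huv,
      hv, ← e] at h1
    linarith

/-- Radial projection to the unit sphere is Lipschitz away from the centre. -/
theorem norm_radial_sub_le {p q : X} (hp : p ≠ 0) (hq : q ≠ 0) :
    ‖‖p‖⁻¹ • p - ‖q‖⁻¹ • q‖ ≤ 2 * ‖p - q‖ / ‖p‖ := by
  have hp' : 0 < ‖p‖ := norm_pos_iff.2 hp
  have hq' : 0 < ‖q‖ := norm_pos_iff.2 hq
  have e : ‖p‖⁻¹ • p - ‖q‖⁻¹ • q =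
      ‖p‖⁻¹ • ((p - q) + (‖q‖ - ‖p‖) • (‖q‖⁻¹ • q)) := by
    rw [smul_add, smul_sub, smul_smul, smul_smul, mul_sub, inv_mul_cancel₀ hp'.ne', sub_mul,
      mul_assoc, mul_inv_cancel₀ hq'.ne', one_mul, mul_one, sub_smul]
    abel
  rw [e, norm_smul, norm_inv, norm_norm, inv_mul_eq_div]
  refine div_le_div_of_nonneg_right ((norm_add_le _ _).trans ?_) hp'.le
  rw [norm_smul, norm_smul, norm_inv, norm_norm, inv_mul_cancel₀ hq'.ne', mul_one,
    Real.norm_eq_abs]
  linarith [abs_norm_sub_norm_le q p, norm_sub_rev q p]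

variable [CompleteSpace X] {g : X → X}

/-- The averaged map is onto the sphere. -/
theorem exists_pred (hn : ∀ u, ‖u‖ = 1 → ‖g u‖ = 1)
    (hlip : ∀ u v, ‖u‖ = 1 → ‖v‖ = 1 → ‖g u - g v‖ ≤ ‖u - v‖)
    (hstar : ∀ u, ‖u‖ = 1 → ‖u + g u‖ = 2) {y : X} (hy : ‖y‖ = 1) :
    ∃ u, ‖u‖ = 1 ∧ u + (1 / 16 : ℝ) • (g u - u) = y := by
  set p : X → X := fun u => y - (1 / 16 : ℝ) • (g u - u) with hp
  have hlow : ∀ u, ‖u‖ = 1 → 7 / 8 ≤ ‖p u‖ := fun u hu => by
    have h1 := norm_sub_norm_le y ((1 / 16 : ℝ) • (g u - u))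
    have h2 := norm_sub_le (g u) u
    rw [norm_smul, Real.norm_of_nonneg (by norm_num), hy] at h1
    rw [hn u hu, hu] at h2
    simp only [hp]
    linarith
  have hne : ∀ u, ‖u‖ = 1 → p u ≠ 0 := fun u hu h => by
    have := hlow u hu
    rw [h, norm_zero] at this
    linarith
  let T : sphere (0 : X) 1 → sphere (0 : X) 1 := fun u =>
    ⟨‖p u‖⁻¹ • p u, by
      rw [mem_sphere_zero_iff_norm, norm_smul, norm_inv, norm_norm,
        inv_mul_cancel₀ (norm_ne_zero_iff.2 (hne _ (mem_sphere_zero_iff_norm.1 u.2)))]⟩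
  have hT : ContractingWith (1 / 2) T := by
    refine ⟨by norm_num, LipschitzWith.of_dist_le_mul fun u v => ?_⟩
    have hu := mem_sphere_zero_iff_norm.1 u.2
    have hv := mem_sphere_zero_iff_norm.1 v.2
    rw [Subtype.dist_eq, Subtype.dist_eq, dist_eq_norm, dist_eq_norm]
    refine (norm_radial_sub_le (hne _ hu) (hne _ hv)).trans ?_
    have e : p u - p v = (1 / 16 : ℝ) • ((g v - g u) + ((u : X) - v)) := by
      simp only [hp]; module
    have h1 : ‖p u - p v‖ ≤ 1 / 8 * ‖(u : X) - v‖ := by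
      rw [e, norm_smul, Real.norm_of_nonneg (by norm_num)]
      have := norm_add_le (g (v : X) - g (u : X)) ((u : X) - v)
      have := hlip _ _ hv hu
      rw [norm_sub_rev (v : X)] at this
      linarith
    rw [div_le_iff₀ (norm_pos_iff.2 (hne _ hu))]
    have := hlow _ hu
    push_cast
    nlinarith [norm_nonneg ((u : X) - v)]
  have : CompleteSpace (sphere (0 : X) 1) := isClosed_sphere.completeSpace_coe
  have : Nonempty (sphere (0 : X) 1) := ⟨⟨y, mem_sphere_zero_iff_norm.2 hy⟩⟩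
  obtain ⟨u, hu⟩ : ∃ u, T u = u := ⟨_, hT.fixedPoint_isFixedPt⟩
  have hu1 := mem_sphere_zero_iff_norm.1 u.2
  have hfix : ‖p u‖⁻¹ • p (u : X) = u := congrArg Subtype.val hu
  set c := ‖p u‖ with hc
  have hpu : p (u : X) = c • (u : X) := by
    conv_rhs => rw [← hfix]
    rw [smul_smul, mul_inv_cancel₀ (norm_ne_zero_iff.2 (hne _ hu1)), one_smul]
  have hy' : y = (c - 1 / 16) • (u : X) + (1 / 16 : ℝ) • g u := by
    simp only [hp, sub_eq_iff_eq_add] at hpu
    rw [hpu]; module
  have hc7 : 7 / 8 ≤ c := hlow _ hu1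
  have hc1 : c = 1 := by
    have h := norm_comb hu1 (hn _ hu1) (hstar _ hu1) (a := c - 1 / 16) (b := 1 / 16)
      (by linarith) (by norm_num)
    rw [← hy', hy] at h
    linarith
  refine ⟨u, hu1, ?_⟩
  rw [hy', hc1]
  module

/-- A nonexpansive self-map of the sphere which moves points only inside their stars is trivial. -/
theorem eq_self_of_star (hn : ∀ u, ‖u‖ = 1 → ‖g u‖ = 1)
    (hlip : ∀ u v, ‖u‖ = 1 → ‖v‖ = 1 → ‖g u - g v‖ ≤ ‖u - v‖)
    (hstar : ∀ u, ‖u‖ = 1 → ‖u + g u‖ = 2) {u₀ : X} (hu₀ : ‖u₀‖ = 1) : g u₀ = u₀ := by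
  set h : X → X := fun u => u + (1 / 16 : ℝ) • (g u - u) with hh
  have h1 : ∀ u, ‖u‖ = 1 → ‖h u‖ = 1 := fun u hu => by
    have e : h u = (15 / 16 : ℝ) • u + (1 / 16 : ℝ) • g u := by simp only [hh]; module
    rw [e, norm_comb hu (hn u hu) (hstar u hu) (by norm_num) (by norm_num)]
    norm_num
  have hstep : ∀ u, ‖h u - u‖ = 1 / 16 * ‖g u - u‖ := fun u => by
    simp only [hh]
    rw [add_sub_cancel_left, norm_smul, Real.norm_of_nonneg (by norm_num)]
  have hdec : ∀ u, ‖u‖ = 1 → ‖g (h u) - h u‖ ≤ ‖g u - u‖ := fun u hu => by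
    have e : g (h u) - h u = (g (h u) - g u) + (15 / 16 : ℝ) • (g u - u) := by
      simp only [hh]; module
    rw [e]
    refine (norm_add_le _ _).trans ?_
    have := hlip _ _ (h1 u hu) hu
    rw [hstep u] at this
    rw [norm_smul, Real.norm_of_nonneg (by norm_num)]
    linarith
  have hit : ∀ (n : ℕ) u, ‖u‖ = 1 → ‖h^[n] u‖ = 1 := by
    intro n
    induction n with
    | zero => exact fun u hu => hu
    | succ n ih =>
      intro u hu
      rw [Function.iterate_succ_apply']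
      exact h1 _ (ih u hu)
  -- the largest displacement
  have : Nonempty (sphere (0 : X) 1) := ⟨⟨u₀, mem_sphere_zero_iff_norm.2 hu₀⟩⟩
  have hbdd : BddAbove (range fun u : sphere (0 : X) 1 => ‖g (u : X) - u‖) := by
    refine ⟨2, forall_mem_range.2 fun u => ?_⟩
    have hu := mem_sphere_zero_iff_norm.1 u.2
    linarith [norm_sub_le (g (u : X)) u, hn _ hu]
  set D := ⨆ u : sphere (0 : X) 1, ‖g (u : X) - u‖ with hD
  have hle : ∀ u, ‖u‖ = 1 → ‖g u - u‖ ≤ D := fun u hu =>
    le_ciSup hbdd ⟨u, mem_sphere_zero_iff_norm.2 hu⟩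
  -- iterates move at most linearly
  have hdist : ∀ (m : ℕ) u, ‖u‖ = 1 → ‖h^[m] u - u‖ ≤ m * (1 / 16 * D) := by
    intro m
    induction m with
    | zero => intro u _; simp
    | succ m ih =>
      intro u hu
      rw [Function.iterate_succ_apply']
      have := norm_sub_le_norm_sub_add_norm_sub (h (h^[m] u)) (h^[m] u) u
      rw [hstep] at this
      push_cast
      linarith [hle _ (hit m u hu), ih u hu]
  -- the inequality of Goebel and Kirk
  have hgk : ∀ (n : ℕ) (ε : ℝ) u, ‖u‖ = 1 → D - ε ≤ ‖g (h^[n] u) - h^[n] u‖ →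
      (1 + n * (1 / 16)) * D - ε * (16 / 15) ^ n ≤ ‖g (h^[n] u) - u‖ := by
    intro n
    induction n with
    | zero => intro ε u _ he; simpa using he
    | succ n ih =>
      intro ε u hu he
      rw [Function.iterate_succ_apply] at he ⊢
      have hA := ih ε (h u) (h1 u hu) he
      have e : g (h^[n] (h u)) - h u = (15 / 16 : ℝ) • (g (h^[n] (h u)) - u) +
          (1 / 16 : ℝ) • (g (h^[n] (h u)) - g u) := by
        simp only [hh]; module
      have hB := norm_add_le ((15 / 16 : ℝ) • (g (h^[n] (h u)) - u))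
        ((1 / 16 : ℝ) • (g (h^[n] (h u)) - g u))
      rw [← e, norm_smul, norm_smul, Real.norm_of_nonneg (by norm_num),
        Real.norm_of_nonneg (by norm_num)] at hB
      have hC := hdist (n + 1) u hu
      rw [Function.iterate_succ_apply] at hC
      have hE := hlip _ _ (hit n (h u) (h1 u hu)) hu
      rw [pow_succ]
      push_cast at hC ⊢
      linarith
  -- backward chains
  have hback : ∀ (n : ℕ) x, ‖x‖ = 1 → ∃ u, ‖u‖ = 1 ∧ h^[n] u = x := by
    intro n
    induction n with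
    | zero => exact fun x hx => ⟨x, hx, rfl⟩
    | succ n ih =>
      intro x hx
      obtain ⟨v, hv, hvx⟩ := exists_pred hn hlip hstar hx
      obtain ⟨u, hu, huv⟩ := ih v hv
      exact ⟨u, hu, by rw [Function.iterate_succ_apply', huv]; exact hvx⟩
  have hbound : ∀ n : ℕ, (1 + n * (1 / 16)) * D ≤ 2 := by
    intro n
    refine le_of_forall_pos_le_add fun δ hδ => ?_
    have hpow : (0 : ℝ) < (16 / 15) ^ n := by positivity
    set ε := δ / (16 / 15 : ℝ) ^ n with hε
    have hε0 : 0 < ε := div_pos hδ hpow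
    obtain ⟨x, hx⟩ := exists_lt_of_lt_ciSup (show D - ε < D by linarith)
    have hx1 := mem_sphere_zero_iff_norm.1 x.2
    obtain ⟨u, hu, hux⟩ := hback n x hx1
    have h2 := hgk n ε u hu (by rw [hux]; exact hx.le)
    have h3 := norm_sub_le (g (h^[n] u)) u
    rw [hn _ (hit n u hu), hu] at h3
    have h4 : ε * (16 / 15 : ℝ) ^ n = δ := div_mul_cancel₀ δ hpow.ne'
    linarith
  have hD0 : D ≤ 0 := by
    by_contra hpos
    push Not at hpos
    obtain ⟨n, hn'⟩ := exists_nat_gt (32 / D)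
    rw [div_lt_iff₀ hpos] at hn'
    linarith [hbound n]
  exact sub_eq_zero.1 (norm_le_zero_iff.1 ((hle u₀ hu₀).trans hD0))

end Vale.Agent.P084.Odd
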